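import Vale.Agent.H2.P060.Main

namespace Vale.Agent.H2.P060

open Finset Classical

variable {V : Type} [Fintype V]

/-- `G` has a `K_t` minor -/
def HasCliqueMinor (G : SimpleGraph V) (t : ℕ) : Prop :=
  ∃ B : Fin t → Set V, (∀ i, (G.induce (B i)).Connected) ∧
    (∀ i j, i ≠ j → Disjoint (B i) (B j)) ∧
    ∀ i j, i ≠ j → ∃ x ∈ B i, ∃ y ∈ B j, G.Adj x y

theorem HasCliqueMinor.le {G : SimpleGraph V} {t : ℕ} (h : HasCliqueMinor G t) :
    t ≤ Fintype.card V := by
  obtain ⟨B, h1, h2, -⟩ := h
  have h3 : ∀ i, ∃ x, x ∈ B i := fun i => by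
    obtain ⟨x⟩ := (h1 i).nonempty
    exact ⟨x.1, x.2⟩
  choose x hx using h3
  have hinj : Function.Injective x := by
    intro i j hij
    by_contra hne
    have := Set.disjoint_left.1 (h2 i j hne) (hx i)
    rw [hij] at this
    exact this (hx j)
  simpa using Fintype.card_le_of_injective x hinj

/-- the number of vertices at distance at most two in the complement -/
theorem second_le (G : SimpleGraph V) (Δ : ℕ)
    (hΔ : ∀ v, (univ.filter (fun w => Gᶜ.Adj v w)).card ≤ Δ) (u : V) :
    (univ.filter (fun x => x ≠ u ∧ (Gᶜ.Adj u x ∨ ∃ w, Gᶜ.Adj u w ∧ Gᶜ.Adj x w))).card ≤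
      Δ ^ 2 := by
  have h1 : (univ.filter (fun x => x ≠ u ∧ (Gᶜ.Adj u x ∨ ∃ w, Gᶜ.Adj u w ∧ Gᶜ.Adj x w))) ⊆
      (univ.filter (fun w => Gᶜ.Adj u w)) ∪
        (univ.filter (fun w => Gᶜ.Adj u w)).biUnion
          (fun w => (univ.filter (fun x => Gᶜ.Adj w x)).erase u) := by
    intro x hx
    simp only [Finset.mem_union, Finset.mem_filter, Finset.mem_univ, true_and,
      Finset.mem_biUnion, Finset.mem_erase] at hx ⊢
    obtain ⟨a, b | ⟨w, c1, c2⟩⟩ := hx
    · left; exact b
    · right; exact ⟨w, c1, a, c2.symm⟩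
  refine (Finset.card_le_card h1).trans ?_
  refine (Finset.card_union_le _ _).trans ?_
  have h2 : ((univ.filter (fun w => Gᶜ.Adj u w)).biUnion
        (fun w => (univ.filter (fun x => Gᶜ.Adj w x)).erase u)).card ≤
      (univ.filter (fun w => Gᶜ.Adj u w)).card * (Δ - 1) := by
    apply Finset.card_biUnion_le_card_mul
    intro w hw
    rw [Finset.mem_filter] at hw
    rw [Finset.card_erase_of_mem (by simpa using hw.2.symm)]
    exact Nat.sub_le_sub_right (hΔ w) 1
  have h3 := hΔ u
  rcases Nat.eq_zero_or_pos Δ with h0 | h0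
  · have h4 : (univ.filter (fun w => Gᶜ.Adj u w)).card = 0 := by omega
    rw [h4] at h2 ⊢
    omega
  · calc _ ≤ Δ + Δ * (Δ - 1) := by
          apply Nat.add_le_add h3
          exact h2.trans (Nat.mul_le_mul_right _ h3)
      _ = Δ ^ 2 := by
          obtain ⟨d, rfl⟩ := Nat.exists_eq_succ_of_ne_zero h0.ne'
          simp; ring

theorem core (G : SimpleGraph V) (D : ℕ)
    (hD : ∀ u, (univ.filter (fun x => x ≠ u ∧
      (Gᶜ.Adj u x ∨ ∃ w, Gᶜ.Adj u w ∧ Gᶜ.Adj x w))).card ≤ D) (f : V → V)
    (hf : Good Gᶜ.Adj f) (hbest : ∀ f', Good Gᶜ.Adj f' → (fx f).card ≤ (fx f').card)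
    (hM : 2 * D < (univ \ fx f).card) :
    ∃ t, G.Colorable t ∧ HasCliqueMinor G t ∧ Fintype.card V ≤ 2 * t := by
  set M : Finset V := univ \ fx f with hMdef
  have hMmem : ∀ v, v ∈ M ↔ f v ≠ v := by
    intro v; rw [hMdef, Finset.mem_sdiff, mem_fx]; simp
  set R : V → V → Prop := fun u v => u ∈ M ∧ v ∈ M ∧ u ≠ v ∧ ¬ Gᶜ.Adj u v ∧
    ∀ w, ¬ (Gᶜ.Adj u w ∧ Gᶜ.Adj v w) with hR
  have hRs : ∀ u v, R u v → R v u := by
    rintro u v ⟨a, b, c, d, e⟩
    exact ⟨b, a, c.symm, fun h => d h.symm, fun w h => e w ⟨h.2, h.1⟩⟩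
  have hRi : ∀ u, ¬ R u u := fun u h => h.2.2.1 rfl
  obtain ⟨g, hg, hgbest⟩ := exists_best R
  have hsub1 : fx f ⊆ fx g := by
    intro v hv
    rw [mem_fx] at hv ⊢
    by_contra h
    have := (hg.2 v h).1
    rw [hMmem] at this
    exact this hv
  have hnf : ∀ z, g z ≠ z → z ∈ M := fun z hz => (hg.2 z hz).1
  -- size of the neighbourhoods
  have hN : ∀ u, u ∈ M → M.card ≤ (univ.filter (fun x => R u x)).card + (1 + D) := by
    intro u hu
    have h1 : M ⊆ (univ.filter (fun x => R u x)) ∪ ({u} ∪ (univ.filter (fun x => x ≠ u ∧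
        (Gᶜ.Adj u x ∨ ∃ w, Gᶜ.Adj u w ∧ Gᶜ.Adj x w)))) := by
      intro x hx
      simp only [Finset.mem_union, Finset.mem_filter, Finset.mem_univ, true_and,
        Finset.mem_singleton]
      by_cases a : x = u
      · right; left; exact a
      by_cases b : Gᶜ.Adj u x
      · right; right; exact ⟨a, Or.inl b⟩
      by_cases c : ∃ w, Gᶜ.Adj u w ∧ Gᶜ.Adj x w
      · right; right; exact ⟨a, Or.inr c⟩
      · left
        exact ⟨hu, hx, fun h => a h.symm, b, fun w hw => c ⟨w, hw⟩⟩
    refine (Finset.card_le_card h1).trans ?_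
    refine (Finset.card_union_le _ _).trans ?_
    apply Nat.add_le_add_left
    refine (Finset.card_union_le _ _).trans ?_
    rw [Finset.card_singleton]
    exact Nat.add_le_add_left (hD u) 1
  have hfix : fx g = fx f := by
    apply Finset.Subset.antisymm _ hsub1
    intro u hu
    by_contra hcon
    have hcf := card_orb f hf.1
    have hcg := card_orb g hg.1
    have hsd : (fx g \ fx f).card + (fx f).card = (fx g).card :=
      Finset.card_sdiff_add_card_eq_card hsub1
    have hpos : 0 < (fx g \ fx f).card :=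
      Finset.card_pos.2 ⟨u, Finset.mem_sdiff.2 ⟨hu, hcon⟩⟩
    have h2 : 1 < (fx g \ fx f).card := by omega
    obtain ⟨v, hv, hvu⟩ := Finset.exists_mem_ne h2 u
    rw [Finset.mem_sdiff] at hv
    have hu' : g u = u := (mem_fx g u).1 hu
    have hv' : g v = v := (mem_fx g v).1 hv.1
    have huM : u ∈ M := by rw [hMmem]; intro h; exact hcon ((mem_fx f u).2 h)
    have hvM : v ∈ M := by rw [hMmem]; intro h; exact hv.2 ((mem_fx f v).2 h)
    have hA : ∀ w, g w = w → ∀ x, R w x → g x ≠ x := by
      intro w hw x hx hgx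
      exact best_add R hRs g hg hgbest w x (fun h => hRi w (h ▸ hx)) hw hgx hx
    have hNu := hN u huM
    have hNv := hN v hvM
    have hdis : ¬ Disjoint ((univ.filter (fun x => R u x)).image g)
        (univ.filter (fun x => R v x)) := by
      intro hd
      have h3 := Finset.card_union_of_disjoint hd
      rw [Finset.card_image_of_injective _ hg.1.injective] at h3
      have h4 : ((univ.filter (fun x => R u x)).image g) ∪ (univ.filter (fun x => R v x)) ⊆
          (M.erase u).erase v := by
        intro z hz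
        have hz' : g z ≠ z := by
          rw [Finset.mem_union, Finset.mem_image] at hz
          rcases hz with ⟨x, hx, rfl⟩ | hz
          · rw [Finset.mem_filter] at hx
            have := hA u hu' x hx.2
            rw [hg.1 x]
            exact this.symm
          · rw [Finset.mem_filter] at hz
            exact hA v hv' z hz.2
        rw [Finset.mem_erase, Finset.mem_erase]
        exact ⟨fun h => hz' (h ▸ hv'), fun h => hz' (h ▸ hu'), hnf z hz'⟩
      have h5 := Finset.card_le_card h4
      rw [Finset.card_erase_of_mem (by rw [Finset.mem_erase]; exact ⟨hvu, hvM⟩),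
        Finset.card_erase_of_mem huM] at h5
      have hM2 : 1 < M.card := Finset.one_lt_card.2 ⟨u, huM, v, hvM, hvu.symm⟩
      omega
    rw [Finset.not_disjoint_iff] at hdis
    obtain ⟨y, hy1, hy2⟩ := hdis
    rw [Finset.mem_image] at hy1
    obtain ⟨x, hx, rfl⟩ := hy1
    rw [Finset.mem_filter] at hx hy2
    exact best_aug R hRs hRi g hg hgbest u v x hvu.symm hu' hv' (hA u hu' x hx.2) hx.2 hy2.2
  have hcf := card_orb f hf.1
  have hcg := card_orb g hg.1
  have hcard : (orb f).card = (orb g).card := by rw [hfix] at hcg; omega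
  refine ⟨(orb g).card, ?_, ?_, by omega⟩
  · rw [← hcard]
    have C : G.Coloring {o // o ∈ orb f} := SimpleGraph.Coloring.mk
      (fun v => ⟨{v, f v}, by unfold orb; exact Finset.mem_image_of_mem _ (Finset.mem_univ v)⟩) (by
        intro u v huv h
        have h1 := orb_eq f hf.1 u v (Subtype.ext_iff.1 h)
        rcases h1 with h1 | h1
        · exact huv.ne h1
        · have h2 : f v ≠ v := fun h3 => huv.ne (by rw [h1, h3])
          have h3 := hf.2 v h2
          rw [← h1, SimpleGraph.compl_adj] at h3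
          exact h3.2 huv.symm)
    have h1 := C.colorable
    rwa [Fintype.card_coe] at h1
  · set e := (orb g).equivFin.symm with he
    have horb : ∀ i, ∃ v, ((e i).1 : Finset V) = {v, g v} := by
      intro i
      have := (e i).2
      unfold orb at this
      rw [Finset.mem_image] at this
      obtain ⟨v, -, hv⟩ := this
      exact ⟨v, hv.symm⟩
    refine ⟨fun i => ((e i).1 : Set V), ?_, ?_, ?_⟩
    · intro i
      obtain ⟨v, hv⟩ := horb i
      have hcoe : (((e i).1 : Finset V) : Set V) = ({v, g v} : Set V) := by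
        rw [hv]; simp
      show (G.induce (((e i).1 : Finset V) : Set V)).Connected
      rw [hcoe]
      by_cases h : g v = v
      · have hcoe2 : ({v, g v} : Set V) = {v} := by rw [h]; simp
        rw [hcoe2, SimpleGraph.connected_iff]
        exact ⟨fun x y => by rw [Subsingleton.elim x y], ⟨⟨v, rfl⟩⟩⟩
      · apply SimpleGraph.induce_pair_connected_of_adj
        have h1 := hg.2 v h
        by_contra h2
        exact h1.2.2.2.1 (by rw [SimpleGraph.compl_adj]; exact ⟨h1.2.2.1, h2⟩)
    · intro i j hij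
      obtain ⟨v, hv⟩ := horb i
      obtain ⟨w, hw⟩ := horb j
      rw [Set.disjoint_left]
      intro x hx1 hx2
      apply hij
      apply e.injective
      apply Subtype.ext
      rw [hv, hw]
      have hx1' : x ∈ (e i).1 := hx1
      have hx2' : x ∈ (e j).1 := hx2
      rw [hv] at hx1'
      rw [hw] at hx2'
      have a1 : x = v ∨ x = g v := by simpa using hx1'
      have a2 : x = w ∨ x = g w := by simpa using hx2'
      rw [← orb_eq_of g hg.1 x v a1, ← orb_eq_of g hg.1 x w a2]
    · intro i j hij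
      obtain ⟨v, hv⟩ := horb i
      obtain ⟨w, hw⟩ := horb j
      have hne : ∀ x y, (x = v ∨ x = g v) → (y = w ∨ y = g w) → x ≠ y := by
        intro x y a1 a2 h
        apply hij
        apply e.injective
        apply Subtype.ext
        rw [hv, hw, ← orb_eq_of g hg.1 x v a1, ← orb_eq_of g hg.1 y w a2, h]
      have key : ∀ p p' r : V, p ≠ r → p' ≠ r → g p = p' → p' ≠ p → G.Adj p r ∨ G.Adj p' r := by
        intro p p' r h1 h2 h3 h4
        by_contra hcon
        push Not at hcon
        have h5 := hg.2 p (by rw [h3]; exact h4)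
        rw [h3] at h5
        apply h5.2.2.2.2 r
        rw [SimpleGraph.compl_adj, SimpleGraph.compl_adj]
        exact ⟨⟨h1, hcon.1⟩, ⟨h2, hcon.2⟩⟩
      have hvi : ∀ x, (x = v ∨ x = g v) → x ∈ ((e i).1 : Set V) := by
        intro x hx; rw [hv]; simpa using hx
      have hwj : ∀ x, (x = w ∨ x = g w) → x ∈ ((e j).1 : Set V) := by
        intro x hx; rw [hw]; simpa using hx
      by_cases h1 : g v = v
      · by_cases h2 : g w = w
        · refine ⟨v, hvi v (Or.inl rfl), w, hwj w (Or.inl rfl), ?_⟩
          have hfv : f v = v := by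
            have : v ∈ fx g := (mem_fx g v).2 h1
            rw [hfix] at this
            exact (mem_fx f v).1 this
          have hfw : f w = w := by
            have : w ∈ fx g := (mem_fx g w).2 h2
            rw [hfix] at this
            exact (mem_fx f w).1 this
          have hvw : v ≠ w := hne v w (Or.inl rfl) (Or.inl rfl)
          have := best_add Gᶜ.Adj (fun u v h => h.symm) f hf hbest v w hvw hfv hfw
          rw [SimpleGraph.compl_adj] at this
          by_contra h3
          exact this ⟨hvw, h3⟩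
        · rcases key w (g w) v (hne v w (Or.inl rfl) (Or.inl rfl)).symm
            (hne v (g w) (Or.inl rfl) (Or.inr rfl)).symm rfl h2 with h3 | h3
          · exact ⟨v, hvi v (Or.inl rfl), w, hwj w (Or.inl rfl), h3.symm⟩
          · exact ⟨v, hvi v (Or.inl rfl), g w, hwj _ (Or.inr rfl), h3.symm⟩
      · rcases key v (g v) w (hne v w (Or.inl rfl) (Or.inl rfl))
            (hne (g v) w (Or.inr rfl) (Or.inl rfl)) rfl h1 with h3 | h3
        · exact ⟨v, hvi v (Or.inl rfl), w, hwj w (Or.inl rfl), h3⟩
        · exact ⟨g v, hvi _ (Or.inr rfl), w, hwj w (Or.inl rfl), h3⟩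

end Vale.Agent.H2.P060
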