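import Mathlib

namespace Vale.Agent.H2.P060

open Finset Classical

variable {V : Type} [Fintype V]

/-- fixed points -/
noncomputable def fx (f : V → V) : Finset V := univ.filter (fun v => f v = v)

/-- orbits -/
noncomputable def orb (f : V → V) : Finset (Finset V) := univ.image (fun v => ({v, f v} : Finset V))

theorem mem_fx (f : V → V) (v : V) : v ∈ fx f ↔ f v = v := by
  unfold fx; simp

theorem orb_eq (f : V → V) (hf : Function.Involutive f) (v w : V)
    (h : ({v, f v} : Finset V) = {w, f w}) : v = w ∨ v = f w := by
  have : v ∈ ({w, f w} : Finset V) := by rw [← h]; simp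
  simpa using this

theorem orb_eq_of (f : V → V) (hf : Function.Involutive f) (v w : V)
    (h : v = w ∨ v = f w) : ({v, f v} : Finset V) = {w, f w} := by
  rcases h with rfl | rfl
  · rfl
  · rw [hf w, Finset.pair_comm]

theorem card_orb (f : V → V) (hf : Function.Involutive f) :
    2 * (orb f).card = Fintype.card V + (fx f).card := by
  have h1 : Fintype.card V = ∑ o ∈ orb f, (univ.filter (fun v => ({v, f v} : Finset V) = o)).card := by
    rw [← Finset.card_univ]
    exact Finset.card_eq_sum_card_image (fun v => ({v, f v} : Finset V)) univ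
  have h2 : (fx f).card = ∑ o ∈ orb f, ((fx f).filter (fun v => ({v, f v} : Finset V) = o)).card := by
    apply Finset.card_eq_sum_card_fiberwise
    intro v _
    unfold orb
    simp
  rw [h1, h2, ← Finset.sum_add_distrib]
  have h3 : ∀ o ∈ orb f, (univ.filter (fun v => ({v, f v} : Finset V) = o)).card +
      ((fx f).filter (fun v => ({v, f v} : Finset V) = o)).card = 2 := by
    intro o ho
    unfold orb at ho
    rw [Finset.mem_image] at ho
    obtain ⟨w, -, rfl⟩ := ho
    have e1 : univ.filter (fun v => ({v, f v} : Finset V) = {w, f w}) = {w, f w} := by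
      ext v
      simp only [Finset.mem_filter, Finset.mem_univ, true_and, Finset.mem_insert,
        Finset.mem_singleton]
      exact ⟨orb_eq f hf v w, orb_eq_of f hf v w⟩
    by_cases hw : f w = w
    · have e2 : (fx f).filter (fun v => ({v, f v} : Finset V) = {w, f w}) = {w} := by
        ext v
        simp only [Finset.mem_filter, mem_fx, Finset.mem_singleton]
        constructor
        · rintro ⟨_, h⟩
          rcases orb_eq f hf v w h with h | h
          · exact h
          · rw [h, hw]
        · rintro rfl; exact ⟨hw, rfl⟩
      rw [e1, e2, hw]; simp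
    · have e2 : (fx f).filter (fun v => ({v, f v} : Finset V) = {w, f w}) = ∅ := by
        apply Finset.filter_eq_empty_iff.2
        intro v hv h
        rw [mem_fx] at hv
        rcases orb_eq f hf v w h with h | h
        · subst h; exact hw hv
        · subst h
          rw [hf w] at hv
          exact hw hv.symm
      rw [e1, e2, Finset.card_pair (Ne.symm hw)]; simp
  rw [Finset.sum_congr rfl h3]
  simp [mul_comm]

/-- an involution with few fixed points, compatible with `R` -/
def Good (R : V → V → Prop) (f : V → V) : Prop :=
  Function.Involutive f ∧ ∀ v, f v ≠ v → R v (f v)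

theorem exists_best (R : V → V → Prop) : ∃ f : V → V, Good R f ∧
    ∀ f', Good R f' → (fx f).card ≤ (fx f').card := by
  have hne : (univ.filter (fun f : V → V => Good R f)).Nonempty :=
    ⟨id, by rw [Finset.mem_filter]; exact ⟨Finset.mem_univ _, fun _ => rfl, fun v h => absurd rfl h⟩⟩
  obtain ⟨f, hf, hmin⟩ := Finset.exists_min_image _ (fun f : V → V => (fx f).card) hne
  rw [Finset.mem_filter] at hf
  exact ⟨f, hf.2, fun f' h' => hmin f' (by rw [Finset.mem_filter]; exact ⟨Finset.mem_univ _, h'⟩)⟩

/-- swapping in two fixed points -/
theorem best_add (R : V → V → Prop) (hs : ∀ u v, R u v → R v u) (f : V → V) (hf : Good R f)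
    (hbest : ∀ f', Good R f' → (fx f).card ≤ (fx f').card) (u v : V) (huv : u ≠ v)
    (hu : f u = u) (hv : f v = v) : ¬ R u v := by
  intro hR
  set f' : V → V := fun x => if x = u then v else if x = v then u else f x with hf'
  have e1 : f' u = v := by simp [hf']
  have e2 : f' v = u := by simp [hf', huv.symm]
  have e3 : ∀ x, x ≠ u → x ≠ v → f' x = f x := by intro x h1 h2; simp [hf', h1, h2]
  have e4 : ∀ x, x ≠ u → f x ≠ u := by
    intro x h1 h2
    apply h1
    have := hf.1 x
    rw [h2, hu] at this
    exact this.symm
  have e5 : ∀ x, x ≠ v → f x ≠ v := by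
    intro x h1 h2
    apply h1
    have := hf.1 x
    rw [h2, hv] at this
    exact this.symm
  have hg : Good R f' := by
    constructor
    · intro x
      by_cases h1 : x = u
      · subst h1; rw [e1, e2]
      · by_cases h2 : x = v
        · subst h2; rw [e2, e1]
        · rw [e3 x h1 h2, e3 (f x) (e4 x h1) (e5 x h2)]
          exact hf.1 x
    · intro x hx
      by_cases h1 : x = u
      · subst h1; rw [e1]; exact hR
      · by_cases h2 : x = v
        · subst h2; rw [e2]; exact hs _ _ hR
        · rw [e3 x h1 h2] at hx ⊢
          exact hf.2 x hx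
  have h1 := hbest f' hg
  have h2 : fx f' ⊂ fx f := by
    rw [Finset.ssubset_iff_of_subset]
    · refine ⟨u, (mem_fx f u).2 hu, ?_⟩
      rw [mem_fx, e1]; exact huv.symm
    · intro x hx
      rw [mem_fx] at hx ⊢
      by_cases h1 : x = u
      · subst h1; exact hu
      · by_cases h2 : x = v
        · subst h2; exact hv
        · rw [e3 x h1 h2] at hx; exact hx
  exact absurd h1 (not_le.2 (Finset.card_lt_card h2))

/-- augmenting path of length three -/
theorem best_aug (R : V → V → Prop) (hs : ∀ u v, R u v → R v u) (hir : ∀ u, ¬ R u u)
    (f : V → V) (hf : Good R f)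
    (hbest : ∀ f', Good R f' → (fx f).card ≤ (fx f').card) (u v x : V) (huv : u ≠ v)
    (hu : f u = u) (hv : f v = v) (hx : f x ≠ x) (h1 : R u x) (h2 : R v (f x)) : False := by
  set y := f x with hy
  have hyx : f y = x := hf.1 x
  have hyn : y ≠ x := hx
  have hxu : x ≠ u := by rintro rfl; exact hx hu
  have hxv : x ≠ v := by rintro rfl; exact hx hv
  have hyu : y ≠ u := by
    intro h; apply hxu; rw [← hyx, h, hu]
  have hyv : y ≠ v := by
    intro h; apply hxv; rw [← hyx, h, hv]
  set f' : V → V := fun z => if z = u then x else if z = x then u else if z = v then y else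
    if z = y then v else f z with hf'
  have e1 : f' u = x := by simp [hf']
  have e2 : f' x = u := by simp [hf', hxu]
  have e3 : f' v = y := by simp [hf', huv.symm, hxv.symm]
  have e4 : f' y = v := by simp [hf', hyu, hyn, hyv]
  have e5 : ∀ z, z ≠ u → z ≠ x → z ≠ v → z ≠ y → f' z = f z := by
    intro z a b c d; simp [hf', a, b, c, d]
  have inj : ∀ z w, f z = f w → z = w := fun z w h => hf.1.injective h
  have hg : Good R f' := by
    constructor
    · intro z
      by_cases a : z = u
      · subst a; rw [e1, e2]
      by_cases b : z = x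
      · subst b; rw [e2, e1]
      by_cases c : z = v
      · subst c; rw [e3, e4]
      by_cases d : z = y
      · rw [d, e4, e3]
      rw [e5 z a b c d]
      have a' : f z ≠ u := fun h => a (inj _ _ (by rw [h, hu]))
      have c' : f z ≠ v := fun h => c (inj _ _ (by rw [h, hv]))
      have b' : f z ≠ x := fun h => d (inj _ _ (by rw [h, hyx]))
      have d' : f z ≠ y := fun h => b (inj _ _ h)
      rw [e5 (f z) a' b' c' d']
      exact hf.1 z
    · intro z hz
      by_cases a : z = u
      · subst a; rw [e1]; exact h1
      by_cases b : z = x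
      · subst b; rw [e2]; exact hs _ _ h1
      by_cases c : z = v
      · subst c; rw [e3]; exact h2
      by_cases d : z = y
      · rw [d, e4]; exact hs _ _ h2
      rw [e5 z a b c d] at hz ⊢
      exact hf.2 z hz
  have h3 := hbest f' hg
  have h4 : fx f' ⊂ fx f := by
    rw [Finset.ssubset_iff_of_subset]
    · refine ⟨u, (mem_fx f u).2 hu, ?_⟩
      rw [mem_fx, e1]; exact hxu
    · intro z hz
      rw [mem_fx] at hz ⊢
      by_cases a : z = u
      · subst a; exact hu
      by_cases b : z = x
      · subst b; rw [e2] at hz; exact absurd hz.symm hxu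
      by_cases c : z = v
      · subst c; exact hv
      by_cases d : z = y
      · rw [d, e4] at hz; exact absurd hz.symm hyv
      rw [e5 z a b c d] at hz; exact hz
  exact absurd h3 (not_le.2 (Finset.card_lt_card h4))

end Vale.Agent.H2.P060
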